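import Vale.Agent.P354I.Core2
import Vale.Agent.P354KU.Push
import Vale.Agent.P354J.Pull

open scoped ContDiff
open Set Filter Topology Matrix Metric

noncomputable section

namespace Vale.Agent.P354N2

open Vale.Agent.P354H (X3 pdl tr)
open Vale.Agent.P354J (pb Phi Psi Bd wt ms_pb)
open Vale.Agent.P354JK Vale.Agent.P354KU
open Vale.Agent.P354I (X PBI r2)
open Vale.Agent.P354E (sg)

theorem it_smul (f : X → ℝ) (a c : ℝ) (j : ℕ) : iteratedFDeriv ℝ j (fun z => c • f (a • z)) =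
    fun x => (c * a ^ j) • iteratedFDeriv ℝ j f (a • x) := by
  induction j with
  | zero =>
    ext
    simp
  | succ j ih =>
    funext x
    have e := congrFun (fderiv_const_smul_field (𝕜 := ℝ)
      (f := fun x => iteratedFDeriv ℝ j f (a • x)) (c * a ^ j)) x
    rw [Pi.smul_apply, fderiv_comp_smul, smul_smul] at e
    rw [iteratedFDeriv_succ_eq_comp_left, iteratedFDeriv_succ_eq_comp_left, ih, Function.comp_apply,
      Function.comp_apply, ← map_smul, pow_succ, ← mul_assoc, ← e]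
    rfl

theorem cover {y : X} (hy : y ≠ 0) : ∃ σ z, ‖z.2‖ ≤ 1 ∧ y = Phi σ z := by
  obtain ⟨σ, h⟩ : ∃ σ, 0 ≤ sg σ * y 2 := by
    rcases le_total 0 (y 2) with h | h
    exacts [⟨true, by simpa [sg]⟩, ⟨false, by simpa [sg]⟩]
  have n := norm_pos_iff.2 hy
  have d : 0 < ‖y‖ + sg σ * y 2 := by linarith
  have k : ∀ i, ‖y i / (‖y‖ + sg σ * y 2)‖ ≤ 1 := fun i => by
    rw [norm_div, Real.norm_of_nonneg d.le, div_le_one d]
    linarith [PiLp.norm_apply_le y i]
  exact ⟨σ, Psi σ y, max_le (k 0) (k 1), (phi_psi σ hy d.ne').symm⟩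

/-- **PBI.** -/
theorem pbi : PBI := by
  intro m
  have hQ : ∀ σ, IsCompact (Phi σ '' ({0} ×ˢ closedBall 0 1)) := fun σ =>
    (isCompact_singleton.prod (isCompact_closedBall _ _)).image (phi_smooth σ).continuous
  have hU : ∀ σ, Phi σ '' ({0} ×ˢ closedBall 0 1) ⊆ {y | den σ y ≠ 0} := by
    rintro σ _ ⟨z, -, rfl⟩
    exact den_ne σ z
  choose C h0 hC using fun (p : Bool × Fin 3 × Fin 3 × Fin (m + 1)) => cb (open_den p.1)
    (hQ p.1) (hU p.1) (psi_on p.1) p.2.2.2 ℝ (Fin 3 × Fin 3)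
    (fun q y => Nm p.1 y p.2.1 q.2 * Nm p.1 y p.2.2.1 q.1) fun q => (nm_on _ _ _).mul (nm_on _ _ _)
  have h1 : 0 ≤ ∑ p, C p := Finset.sum_nonneg fun p _ => h0 p
  refine ⟨(m + 1) * ∑ p, C p, by positivity, fun s ε F hε hF h i k => ?_⟩
  rw [mul_assoc]
  refine P354T.wn_le_of fun j hj y hy => ?_
  obtain ⟨σ, z, hz, rfl⟩ := cover hy
  have z2 : r2 z ≤ 2 := by
    have a := abs_le.1 ((norm_fst_le z.2).trans hz)
    have b := abs_le.1 ((norm_snd_le z.2).trans hz)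
    unfold r2
    nlinarith
  have e0 : Phi σ z = Real.exp z.1 • Phi σ (0, z.2) := by simp [Phi]
  have w0 := P354JP.wt_pos s z
  have e1 := hC (σ, i, k, ⟨j, Nat.lt_succ_of_le hj⟩)
    (fun q => tr (z.1, 0, 0) fun w => pb σ F w q.2 q.1) (ε * wt s z) (by positivity)
    (fun q => P354H.tr_sm _ (ms_pb σ hF _ _)) _ ⟨(0, z.2), ⟨rfl, mem_closedBall_zero_iff.2 hz⟩, rfl⟩
    fun q α hα => by
      rw [P354H.pdl_tr, psi_phi, tr, show ((0 : ℝ), z.2) + (z.1, 0, 0) = z by ext <;> simp]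
      exact h σ z z2 _ _ α (hα.trans hj)
  erw [← pf_eq σ (tr (z.1, 0, 0) (pb σ F)) i k] at e1
  simp only [pf_smul, Matrix.smul_apply] at e1
  have e2 : (fun y => pf σ (pb σ F) y i k) =ᶠ[𝓝 (Phi σ z)] fun y => F y i k :=
    mem_of_superset ((open_den σ).mem_nhds (den_ne σ z)) fun y hy => by
      simp only [mem_ofPred_eq, pf_pb hy]
  rw [it_smul fun y => pf σ (pb σ F) y i k] at e1
  simp only [← e0] at e1
  rw [(e2.iteratedFDeriv ℝ j).eq_of_nhds, norm_smul, ← pow_add,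
    Real.norm_of_nonneg (by positivity)] at e1
  have e3 : √(1 + z.1 ^ 2) ^ s * wt s z = 1 := by
    rw [wt, ← Real.rpow_add (P354T.rho_pos _), add_neg_cancel, Real.rpow_zero]
  have e4 := mul_le_mul_of_nonneg_left (e1.trans (mul_le_mul_of_nonneg_right
    (Finset.single_le_sum (fun p _ => h0 p) (Finset.mem_univ _)) (by positivity)))
    (show 0 ≤ √(1 + z.1 ^ 2) ^ s by positivity)
  rw [P354T.wt, norm_phi, Real.log_exp, mul_assoc]
  refine e4.trans_eq ?_
  linear_combination (∑ p, C p) * ε * e3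

end Vale.Agent.P354N2
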