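import Vale.Agent.P354M2.Lip
import Vale.Agent.P354IN.Main

open scoped ContDiff
open Set Filter Topology Matrix

noncomputable section

namespace Vale.Agent.P354N2

open Vale.Agent.P354H (X3 pdl pdl_zero)
open Vale.Agent.P354n (R4)
open Vale.Agent.P354J Vale.Agent.P354IN Vale.Agent.P354M2
open Vale.Agent.P354JP (bd_mul bd_add bd_compact wt_pos)
open Vale.Agent.P354C (Ix detP)
open Vale.Agent.P354A (cmp)
open Vale.Agent.P354I (Dat Geo pm mix MIX NEAR2 IsInit Con wd cy r2 KI psi)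

/-- Pointwise Lipschitz dependence of the initial values. -/
theorem lipc (B R : ℝ) (m : ℕ) {c : ℝ} (hc : 0 < c) : ∃ C, 0 ≤ C ∧ ∀ (ε : ℝ) (d d' : Dat),
    Geo c B (m + 2) d → Geo c B (m + 2) d' → ∀ σ (z : X3), ‖z.2‖ ≤ R →
      (∀ a b, Bd (m + 2) (fun w => pb σ d.h w a b - pb σ d'.h w a b) z ε ∧
        Bd (m + 2) (fun w => pb σ d.K w a b - pb σ d'.K w a b) z ε) →
      ∀ i, Tm m C (C * ε) z (fun y => Ud d σ y i) (fun y => Ud d' σ y i) := by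
  obtain ⟨C0, hC0, hP⟩ := P354JP.pbe (m + 2) R
  have hγ : 0 < c / (1 + 2 * R ^ 2) ^ 2 := by positivity
  set γ := c / (1 + 2 * R ^ 2) ^ 2 with hγ'
  choose C hC hT using fun i => (tame_U0 (c := γ) (B := C0 * |B|) hγ i).est m (C0 * |B|)
  obtain ⟨C1, hC1⟩ := (Set.finite_range C).bddAbove
  refine ⟨C1, (hC Ix.O).trans (hC1 ⟨Ix.O, rfl⟩), fun ε d d' G G' σ z hz h i => ?_⟩
  have near : ∀ d, ∀ G : Geo c B (m + 2) d,
      JJ ⟨(pb σ d.h, pb σ d.K), G.1.toPD σ⟩ z ∈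
        QQ γ (C0 * |B|) ×ˢ Metric.closedBall 0 (C0 * |B|) ∧
      Bd (m + 2) (JJ ⟨(pb σ d.h, pb σ d.K), G.1.toPD σ⟩) z (C0 * |B|) := by
    intro d G
    have D := G.1
    have hB : ENNReal.ofReal B ≤ ENNReal.ofReal |B| := ENNReal.ofReal_le_ofReal (le_abs_self B)
    have k1 := hP 0 |B| d.h (abs_nonneg B)
      (fun i j => ⟨(D.1 i j).1, (G.2.2 i j).1.trans hB⟩) σ z hz
    have k2 := hP 0 |B| d.K (abs_nonneg B)
      (fun i j => ⟨(D.1 i j).2, (G.2.2 i j).2.trans hB⟩) σ z hz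
    simp only [wt_zero, mul_one] at k1 k2
    have b1 := bd_N3 (D.toPD σ).sh k1
    have b2 := bd_N3 (D.toPD σ).sK k2
    exact ⟨⟨⟨⟨sym_of_posDef ((D.toPD σ).pos z).1, up_pb hc.le G.2.1 σ hz⟩,
      mem_closedBall_zero_iff.2 b1.zero⟩, mem_closedBall_zero_iff.2 b2.zero⟩,
      Bd.pair (D.toPD σ).smN (contDiff_pi.2 fun i => contDiff_pi.2 fun j => (D.toPD σ).sK i j)
        b1 b2⟩
  obtain ⟨n1, n2⟩ := near d G
  obtain ⟨n1', n2'⟩ := near d' G'
  have sJ : ∀ d : DD, ContDiff ℝ ∞ (JJ d) := fun d =>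
    d.2.smN.prodMk (contDiff_pi.2 fun i => contDiff_pi.2 fun j => d.2.sK i j)
  have sh := (G.1.toPD σ).sh.sub (G'.1.toPD σ).sh
  have sK := (G.1.toPD σ).sK.sub (G'.1.toPD σ).sK
  have k3 : C i ≤ C1 := hC1 ⟨i, rfl⟩
  exact (hT i ε z _ _ n1 n1' ⟨sJ _, sJ _, n2, n2', Bd.pair
    (contDiff_pi.2 fun i => contDiff_pi.2 fun j => sh i j)
    (contDiff_pi.2 fun i => contDiff_pi.2 fun j => sK i j)
    (bd_N3 sh fun a b => (h a b).1) (bd_N3 sK fun a b => (h a b).2)⟩).mono le_rfl k3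
      (mul_le_mul_of_nonneg_right k3 (h 0 0).1.nonneg)

theorem pb_dif (R : ℝ) (m : ℕ) : ∃ C, 0 ≤ C ∧ ∀ (s ε : ℝ) (d d' : Dat), 0 ≤ ε → PDy d → PDy d' →
    pm s m d d' ≤ ENNReal.ofReal ε → ∀ σ (z : X3), ‖z.2‖ ≤ R → ∀ a b,
      Bd m (fun w => pb σ d.h w a b - pb σ d'.h w a b) z (C * ε * wt s z) ∧
        Bd m (fun w => pb σ d.K w a b - pb σ d'.K w a b) z (C * ε * wt s z) := by
  obtain ⟨C, h0, hP⟩ := P354JP.pbe m R
  refine ⟨C, h0, fun s ε d d' hε D D' h σ z hz a b => ?_⟩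
  have h1 := hP s ε (fun y => d.h y - d'.h y) hε (fun i j => ⟨(D.1 i j).1.sub (D'.1 i j).1,
    (wn_le_pm s _ d d' i j).1.trans h⟩) σ z hz a b
  have h2 := hP s ε (fun y => d.K y - d'.K y) hε (fun i j => ⟨(D.1 i j).2.sub (D'.1 i j).2,
    (wn_le_pm s _ d d' i j).2.trans h⟩) σ z hz a b
  simp only [pb_sub] at h1 h2
  exact ⟨h1, h2⟩

/-- The weight of the right end. -/
def st (z : X3) : ℝ := Real.smoothTransition z.1

theorem st_sm : ContDiff ℝ ∞ st := Real.smoothTransition.contDiff.comp contDiff_fst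

theorem pb_mix (k k' : Dat) (σ : Bool) (z : X3) (a b : Fin 3) :
    pb σ (mix k k').h z a b = st z * pb σ k.h z a b + (1 - st z) * pb σ k'.h z a b ∧
      pb σ (mix k k').K z a b = st z * pb σ k.K z a b + (1 - st z) * pb σ k'.K z a b := by
  simp only [pb, mix, P354JK.norm_phi, Real.log_exp, Matrix.mul_add, Matrix.add_mul,
    Matrix.mul_smul, Matrix.smul_mul, Matrix.add_apply, Matrix.smul_apply, smul_eq_mul, st,
    and_self]

theorem bd_ev {f : X3 → ℝ} {z : X3} (h : ∀ᶠ w in 𝓝 z, f w = 0) (k : ℕ) : Bd k f z 0 :=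
  fun α _ => by
  rw [pdl_ev α (g := 0) h, pdl_zero]
  simp

theorem st_bd {s : ℝ} (hs : 0 ≤ s) (k : ℕ) : ∃ S, 0 ≤ S ∧ ∀ z : X3, ‖z.2‖ ≤ 4 → ∃ a b,
    Bd k st z a ∧ Bd k (fun w => 1 - st w) z b ∧ a * b ≤ S * wt s z := by
  have s2 : ContDiff ℝ ∞ fun w => 1 - st w := contDiff_const.sub st_sm
  obtain ⟨S1, h1, b1⟩ := bd_compact k (isCompact_closedBall (0 : X3) 4) st_sm
  obtain ⟨S2, h2, b2⟩ := bd_compact k (isCompact_closedBall (0 : X3) 4) s2
  refine ⟨S1 * S2 * 2 ^ s, by positivity, fun z hz => ?_⟩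
  have w0 := wt_pos s z
  obtain ⟨a, -, ha⟩ := bd_compact k (isCompact_singleton (x := z)) st_sm
  obtain ⟨b, -, hb⟩ := bd_compact k (isCompact_singleton (x := z)) s2
  rcases lt_or_ge z.1 0 with h | h
  · exact ⟨0, b, bd_ev ((continuousAt_fst.eventually_lt_const h).mono fun w hw =>
      Real.smoothTransition.zero_of_nonpos hw.le) k, hb z rfl, by rw [zero_mul]; positivity⟩
  rcases lt_or_ge 1 z.1 with h' | h'
  · exact ⟨a, 0, ha z rfl, bd_ev ((continuousAt_fst.eventually_const_lt h').mono fun w hw =>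
      sub_eq_zero.2 (Real.smoothTransition.one_of_one_le hw.le).symm) k,
      by rw [mul_zero]; positivity⟩
  have m : z ∈ Metric.closedBall (0 : X3) 4 :=
    mem_closedBall_zero_iff.2 (max_le (abs_le.2 ⟨by linarith, by linarith⟩) hz)
  refine ⟨S1, S2, b1 z m, b2 z m, ?_⟩
  have e : (2 : ℝ) ^ (-s) ≤ wt s z := Real.rpow_le_rpow_of_nonpos (P354T.rho_pos _)
    (Real.sqrt_le_iff.2 ⟨by norm_num, by nlinarith⟩) (by linarith)
  rw [Real.rpow_neg (by norm_num), inv_le_iff_one_le_mul₀' (by positivity)] at e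
  rw [mul_assoc _ (2 ^ s)]
  exact le_mul_of_one_le_right (by positivity) e

/-- The difference of the initial values to the interpolation. -/
theorem wd_bd (B : ℝ) (m : ℕ) {c s : ℝ} (hc : 0 < c) (hs : 0 ≤ s) : ∃ C, 0 ≤ C ∧
    ∀ (ε ε' : ℝ) (k k' d : Dat), 0 ≤ ε → 0 ≤ ε' → Geo c B (m + 2) k → Geo c B (m + 2) k' →
      Geo c B (m + 2) (mix k k') → Geo c B (m + 2) d →
      pm s (m + 2) d (mix k k') ≤ ENNReal.ofReal ε → pm 0 (m + 2) k k' ≤ ENNReal.ofReal ε' →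
      ∀ σ (z : X3), ‖z.2‖ ≤ 4 → ∀ i, Bd m (fun w => Ud d σ w i -
        (st w * Ud k σ w i + (1 - st w) * Ud k' σ w i)) z (C * (ε + ε') * wt s z) := by
  obtain ⟨C, h0, hC⟩ := lipc B 4 m hc
  obtain ⟨C0, h1, hP⟩ := pb_dif 4 (m + 2)
  obtain ⟨S, h2, hS⟩ := st_bd hs (m + 2)
  refine ⟨C * C0 * (1 + 2 * 2 ^ m * 2 ^ (m + 2) * S), by positivity,
    fun ε ε' k k' d e0 e1 G G' Gm Gd p p' σ z hz i => ?_⟩
  obtain ⟨a, b, ha, hb, hab⟩ := hS z hz
  have s2 : ContDiff ℝ ∞ fun w => 1 - st w := contDiff_const.sub st_sm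
  have D := G.1.toPD σ
  have D' := G'.1.toPD σ
  have q := hP 0 ε' k k' e1 G.1 G'.1 p' σ z hz
  have q' := hP 0 ε' k' k e1 G'.1 G.1 (P354T.pm_comm 0 _ k k' ▸ p') σ z hz
  simp only [wt_zero, mul_one] at q q'
  have t0 := hC _ d _ Gd Gm σ z hz (hP s ε d _ e0 Gd.1 Gm.1 p σ z hz) i
  have t1 := hC (2 ^ (m + 2) * b * (C0 * ε')) _ k Gm G σ z hz (fun a c =>
    ⟨(congrArg (fun f => Bd (m + 2) f z _) (funext fun w => by rw [(pb_mix k k' σ w a c).1]; ring)).mp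
      (bd_mul s2 ((D'.sh a c).sub (D.sh a c)) hb (q' a c).1),
    (congrArg (fun f => Bd (m + 2) f z _) (funext fun w => by rw [(pb_mix k k' σ w a c).2]; ring)).mp
      (bd_mul s2 ((D'.sK a c).sub (D.sK a c)) hb (q' a c).2)⟩) i
  have t2 := hC (2 ^ (m + 2) * a * (C0 * ε')) _ k' Gm G' σ z hz (fun a c =>
    ⟨(congrArg (fun f => Bd (m + 2) f z _) (funext fun w => by rw [(pb_mix k k' σ w a c).1]; ring)).mp
      (bd_mul st_sm ((D.sh a c).sub (D'.sh a c)) ha (q a c).1),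
    (congrArg (fun f => Bd (m + 2) f z _) (funext fun w => by rw [(pb_mix k k' σ w a c).2]; ring)).mp
      (bd_mul st_sm ((D.sK a c).sub (D'.sK a c)) ha (q a c).2)⟩) i
  have u1 := t1.sf.sub t1.sg
  have u2 := t2.sf.sub t2.sg
  have t := bd_add (t0.sf.sub t0.sg) ((st_sm.mul u1).add (s2.mul u2)) t0.bd
    (bd_add (st_sm.mul u1) (s2.mul u2) (bd_mul st_sm u1 (ha.mono (by omega) le_rfl) t1.bd)
      (bd_mul s2 u2 (hb.mono (by omega) le_rfl) t2.bd))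
  refine (congrArg (fun f => Bd m f z _) (funext fun w => ?_)).mp (t.mono le_rfl ?_)
  · simp only [Pi.add_apply]
    ring
  · have w0 := (wt_pos s z).le
    have k1 := mul_le_mul_of_nonneg_left hab
      (show 0 ≤ C * C0 * (2 * 2 ^ m * 2 ^ (m + 2)) * ε' by positivity)
    have k2 : 0 ≤ C * C0 * ε' * wt s z := by positivity
    have k3 : 0 ≤ C * C0 * (2 * 2 ^ m * 2 ^ (m + 2) * S) * ε * wt s z := by positivity
    linarith

theorem geo_mono {c c' B B' : ℝ} {m : ℕ} {d : Dat} (h : Geo c B m d) (hc : c' ≤ c) (hB : B ≤ B') :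
    Geo c' B' m d :=
  ⟨h.1, fun y hy v => (mul_le_mul_of_nonneg_right hc
    (Finset.sum_nonneg fun _ _ => sq_nonneg _)).trans (h.2.1 y hy v), fun i j =>
    ⟨(h.2.2 i j).1.trans (ENNReal.ofReal_le_ofReal hB),
      (h.2.2 i j).2.trans (ENNReal.ofReal_le_ofReal hB)⟩⟩

/-- Data of bounded geometry which solve the constraints give initial values. -/
theorem isInit {c B : ℝ} {m : ℕ} {d : Dat} (hc : 0 < c) (G : Geo c B (m + 2) d) (h : Con d)
    (σ : Bool) : IsInit (Ud d σ) := by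
  obtain ⟨sd, p⟩ := sl1 _ _ (G.1.toPD σ)
  obtain ⟨C, c0, -, h0, hL⟩ := lip2 c B 4 m hc
  refine ⟨sd, fun z => ⟨(p z).1, (p z).2.2.1.ne'⟩, ⟨c0, h0, fun z hz => ?_⟩, fun U z hU he => ?_⟩
  · have := hL 0 0 d d le_rfl le_rfl G G (by rw [P354T.pm_self]; exact zero_le) σ z (norm_le hz)
    exact ⟨this.1, this.2.1.trans (le_abs_self _)⟩
  · rw [dslThm U 0 z fun i => (hU i).differentiableAt (by simp),
      dsl_ev (u := P354H.sl U 0) (u' := Ud d σ) he, he.self_of_nhds]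
    exact (p z).2.2.2.2.2.1 (((sl2 d σ G.1).2 z).2 (h _ (phi_ne σ z)))

theorem wd_eq {K K' : R4 → Ix → ℝ} {u v v' : X3 → Ix → ℝ} (h : ∀ z, r2 z < 16 → K (0, z) = v z)
    (h' : ∀ z, r2 z < 16 → K' (0, z) = v' z) (i : Ix) : cmp (wd (KI K K') u) i =
      fun z => cy z * (u z i - (st z * v z i + (1 - st z) * v' z i)) := by
  funext z
  show cy z * _ = _
  rcases lt_or_ge (r2 z) 16 with k | k
  · have : psi i (0, z) = st z := by simp [psi, st]
    rw [KI, h z k, h' z k, this]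
  · rw [cy_zero k, zero_mul, zero_mul]

theorem cy_bd (m : ℕ) : ∃ C, 0 ≤ C ∧ ∀ (f : X3 → ℝ) (g : X3 → ℝ), ContDiff ℝ ∞ f → (∀ z, 0 ≤ g z) →
    (∀ z : X3, ‖z.2‖ ≤ 4 → Bd m f z (g z)) → ∀ z, Bd m (fun z => cy z * f z) z (C * g z) := by
  obtain ⟨c1, h0, hcy⟩ := bd_cy m
  refine ⟨2 ^ m * c1, by positivity, fun f g hf hg h z => ?_⟩
  rcases le_or_gt (r2 z) 16 with k | k
  · exact bd_mul cy_sm hf (hcy z (norm_le k)) (h z (norm_le k))
  · refine (bd_ev ((r2_cont.continuousAt.eventually_const_lt k).mono fun y hy => ?_) m).mono le_rfl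
      (mul_nonneg (by positivity) (hg z))
    rw [cy_zero hy.le, zero_mul]

/-- **NEAR2.** -/
theorem near2 (hX : MIX) : NEAR2 := by
  intro p0 k ε0 δ1 C K kd s T m F hs η hη
  obtain ⟨c, hc, B, hG⟩ := F.geo T (m + 2)
  obtain ⟨B', hB'⟩ := hX.2.1 (m + 2) B
  obtain ⟨η1, e1, h1⟩ := hX.2.2.1 c B' (m + 2) hc
  obtain ⟨C1, c1, hW⟩ := wd_bd (max B (B' + 1)) m (half_pos hc) hs
  obtain ⟨C2, c2, hY⟩ := cy_bd m
  obtain ⟨ν, n0, n1, n2⟩ : ∃ ν > 0, ν ≤ η1 ∧ C2 * (C1 * (ν + (ν + ν))) ≤ η :=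
    ⟨min η1 (η / (3 * C2 * C1 + 1)), by positivity, min_le_left _ _, by
      have := (le_div_iff₀ (by positivity)).1 (min_le_right η1 (η / (3 * C2 * C1 + 1)))
      have : 0 < min η1 (η / (3 * C2 * C1 + 1)) := by positivity
      linarith⟩
  obtain ⟨ε, e0, hε⟩ := F.kcont T (m + 2) ν n0
  refine ⟨ν, n0, min ε ε0, lt_min e0 F.pos.2.1, fun p hp q hq t ht d hd h σ => ?_⟩
  have b0 := Metric.ball_subset_ball (x := p0) (min_le_right ε ε0)
  have b1 := Metric.ball_subset_ball (x := p0) (min_le_left ε ε0)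
  have G := hG p (b0 hp) t ht
  have G' := hG q (b0 hq) t ht
  have G0 := hG p0 (Metric.mem_ball_self F.pos.2.1) t ht
  have Gm := hB' c _ _ G G'
  have Gd := h1 s _ d hs Gm ⟨hd.smooth, hd.pos⟩ (h.le.trans (ENNReal.ofReal_le_ofReal n1))
  have hl := half_le_self hc.le
  have w := hW ν (ν + ν) _ _ d n0.le (by positivity) (geo_mono G hl (le_max_left _ _))
    (geo_mono G' hl (le_max_left _ _)) (geo_mono Gm hl (le_max_of_le_right (by linarith)))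
    (geo_mono Gd le_rfl (le_max_right _ _)) h.le (by
      rw [ENNReal.ofReal_add n0.le n0.le]
      exact (P354T.pm_tri 0 _ G.1.1 G0.1.1 G'.1.1).trans (add_le_add (hε p (b1 hp) t ht)
        (P354T.pm_comm 0 _ _ _ ▸ hε q (b1 hq) t ht))) σ
  have e := wd_eq (u := Ud d σ) (F.init p (b0 hp) t ht.1 σ) (F.init q (b0 hq) t ht.1 σ)
  have sm : ∀ i, ContDiff ℝ ∞ fun w => Ud d σ w i -
      (st w * Ud (kd p t) σ w i + (1 - st w) * Ud (kd q t) σ w i) := fun i =>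
    ((sl1 _ _ (Gd.1.toPD σ)).1 i).sub ((st_sm.mul ((sl1 _ _ (G.1.toPD σ)).1 i)).add
      ((contDiff_const.sub st_sm).mul ((sl1 _ _ (G'.1.toPD σ)).1 i)))
  refine ⟨isInit (half_pos hc) Gd (fun y hy => ⟨hd.hamilton y hy, hd.momentum y hy⟩) σ,
    fun i => e i ▸ cy_sm.mul (sm i), fun z hz => funext fun i => ?_, fun i α hα z => ?_⟩
  · show cy z * _ = 0
    rw [cy_zero hz, zero_mul]
  · have w0 := fun z => (wt_pos s z).le
    rw [e, ← wt_eq]
    refine (hY _ _ (sm i) (fun z => mul_nonneg (by positivity) (w0 z)) (fun z hz => w z hz i)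
      z α hα).trans ?_
    rw [← mul_assoc]
    exact mul_le_mul_of_nonneg_right n2 (w0 z)

end Vale.Agent.P354N2
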