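import Vale.Agent.P354N2.Pbi
import Vale.Agent.P354KF.Kf
import Vale.Agent.P354E3.Ten

open scoped ContDiff
open Set Filter Topology Matrix

noncomputable section

namespace Vale.Agent.P354N2

open Vale.Agent.P354H (X3 e)
open Vale.Agent.P354J (pb Phi M3)
open Vale.Agent.P354JK Vale.Agent.P354KU Vale.Agent.P354RG
open Vale.Agent.P354I (X ee dil kerr kh pd)
open Vale.Agent.P354R (hK kK kap)

theorem kK_eq (M a : ℝ) {r : ℝ} (h : 0 < r) (σ : Bool) (z A B : X3) :
    ∑ l, (∑ k, DP σ z A k * (kerr M a r).K (Phi σ z) k l) * DP σ z B l = kK M a r σ z A B := by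
  have ev : (fun s => hK M a s σ z A B) =ᶠ[𝓝 r] fun s =>
      ∑ l, (∑ k, DP σ z A k * kh M a s (Phi σ z) k l) * DP σ z B l := by
    filter_upwards [Ioi_mem_nhds h] with s hs
    exact (hK_eq M a hs σ z _ _).symm
  have hd := (HasDerivAt.fun_sum (u := Finset.univ) fun l _ =>
    (HasDerivAt.fun_sum (u := Finset.univ) fun k _ =>
      (kh_diff M a h (Phi σ z) k l).hasDerivAt.const_mul (DP σ z A k)).mul_const
        (DP σ z B l)).deriv
  rw [kK, ev.deriv_eq, hd, ← Sg_phi, ← neg_div]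
  simp only [kerr, of_apply, P354R.Del, Finset.mul_sum, Finset.sum_mul]
  exact Finset.sum_congr rfl fun l _ => Finset.sum_congr rfl fun k _ => by ring_nf

theorem dil_phi (c : ℝ) (σ : Bool) (z : X3) : dil c (Phi σ z) = Phi σ (c * z.1, z.2) := by
  rw [dil, norm_phi, Phi, Phi, smul_smul, ← Real.exp_mul, ← Real.exp_add]
  rw [show z.1 * (c - 1) + z.1 = c * z.1 by ring]

theorem dil_DP (c : ℝ) (σ : Bool) (z A : X3) :
    fderiv ℝ (dil c) (Phi σ z) (DP σ z A) = DP σ (c * z.1, z.2) (c * A.1, A.2) := by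
  have n := P354JP.phi_ne σ z
  have d : DifferentiableAt ℝ (dil c) (Phi σ z) :=
    ((((contDiffAt_norm ℝ n).differentiableAt one_ne_zero).rpow_const
      (Or.inl (norm_ne_zero_iff.2 n))).smul differentiableAt_id)
  have p := fun z => ((phi_smooth σ).differentiable (by simp) z).hasFDerivAt
  have k := (d.hasFDerivAt.comp z (p z)).unique (((p _).comp z
    (((hasFDerivAt_fst (𝕜 := ℝ) (p := z)).const_mul c).prodMk hasFDerivAt_snd)).congr_of_eventuallyEq
      (Eventually.of_forall fun w => dil_phi c σ w))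
  exact congrArg (fun L : X3 →L[ℝ] X => L A) k

theorem fd_sum (ψ : X → X) (y v : X) (a : Fin 3) : fderiv ℝ ψ y v a = ∑ k, v k * pd k ψ y a := by
  have : v = ∑ k, v k • ee k := by
    ext i
    simp [ee, Pi.single_apply]
  conv_lhs => rw [this]
  simp [pd]

theorem pb_dil (c : ℝ) (σ : Bool) (F : X → M3) (z : X3) (i j : Fin 3) :
    pb σ (fun y => of fun i j => ∑ k, ∑ l, pd i (dil c) y k * pd j (dil c) y l * F (dil c y) k l)
      z i j = ∑ l, (∑ k, DP σ (c * z.1, z.2) (c * (e i).1, (e i).2) k *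
        F (Phi σ (c * z.1, z.2)) k l) * DP σ (c * z.1, z.2) (c * (e j).1, (e j).2) l := by
  rw [← dil_DP, ← dil_DP, ← dil_phi]
  simp only [pb_apply, fd_sum, of_apply]
  generalize F (dil c (Phi σ z)) = H
  simp only [Fin.sum_univ_three]
  ring

theorem eq_of_pb {σ : Bool} {F G : X → M3} {z : X3} (h : pb σ F z = pb σ G z) :
    F (Phi σ z) = G (Phi σ z) := by
  rw [← pf_pb (den_ne σ z) F, ← pf_pb (den_ne σ z) G, pf, pf, psi_phi, h]

theorem hK_x (M a r : ℝ) (σ : Bool) (z A B : X3) (x : ℝ) :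
    hK M a r σ z A B = hK M a r σ (x, z.2) A B := by
  simp only [hK, P354R.kerr]

theorem kK_x (M a r : ℝ) (σ : Bool) (z A B : X3) (x : ℝ) :
    kK M a r σ z A B = kK M a r σ (x, z.2) A B := by
  simp only [kK, ← hK_x]

/-- **STA.** -/
theorem sta (hT : TEN) (hF : KF) : STA := by
  intro p0 κ ε0 δ G I p hp y hy
  obtain ⟨σ, z, -, rfl⟩ := cover hy
  obtain ⟨h1, h2, h3, -⟩ := I.par p hp
  have r0 := (P354IK.rm_pos h1 h2).trans h3
  have k := fun i j => hF κ 1 G p σ 0 z (e i) (e j) one_pos I.smooth fun s ζ h => (I.pos p s ζ h).1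
  simp only [one_mul] at k
  have b1 : pb σ (kd κ G p 0).h z = pb σ ((kerr p.1 p.2.1 p.2.2).pull
      (dil (κ / kap p.1 p.2.1))).h z := by
    ext i j
    rw [kd, hT, ← (k i j).1, I.first p hp, hK_x _ _ _ _ _ _ _ (κ / kap p.1 p.2.1 * z.1),
      ← hK_eq _ _ r0, P354I.Dat.pull, pb_dil]
    rfl
  have b2 : pb σ (kd κ G p 0).K z = pb σ ((kerr p.1 p.2.1 p.2.2).pull
      (dil (κ / kap p.1 p.2.1))).K z := by
    ext i j
    rw [kd, hT, ← (k i j).2, I.second p hp, kK_x _ _ _ _ _ _ _ (κ / kap p.1 p.2.1 * z.1),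
      ← kK_eq _ _ r0, P354I.Dat.pull, pb_dil]
  exact ⟨eq_of_pb b1, eq_of_pb b2⟩

theorem sta_main : STA := sta P354E3.ten_pb P354KF.kf

end Vale.Agent.P354N2
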