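import Vale.Agent.P354N2.Near
import Vale.Agent.P354SP.Defs
import Vale.Agent.P354DG.Gen2

open scoped ContDiff
open Set

namespace Vale.Agent.P354N2

open Vale.Agent.P354J Vale.Agent.P354IN
open Vale.Agent.P354I (Dat Geo pm wn MIX)

theorem pm_geo {c B : ℝ} {m : ℕ} {k k' : Dat} (G : Geo c B m k) (G' : Geo c B m k') :
    pm 0 m k k' ≤ ENNReal.ofReal (18 * (|B| + |B|)) := by
  have key : ∀ {F H : P354I.X → ℝ}, P354T.Sm F → P354T.Sm H → wn 0 m F ≤ ENNReal.ofReal B →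
      wn 0 m H ≤ ENNReal.ofReal B → wn 0 m (fun y => F y - H y) ≤ ENNReal.ofReal (|B| + |B|) := by
    intro F H hF hH a b
    have e := ENNReal.ofReal_le_ofReal (le_abs_self B)
    simp only [sub_eq_add_neg]
    rw [ENNReal.ofReal_add (abs_nonneg _) (abs_nonneg _)]
    exact (P354T.wn_add_le 0 m hF (ContDiffOn.neg hH)).trans
      (add_le_add (a.trans e) ((P354T.wn_neg 0 m H).trans_le (b.trans e)))
  exact P354T.pm_le_of (by positivity) fun i j =>
    ⟨key (G.1.1 i j).1 (G'.1.1 i j).1 (G.2.2 i j).1 (G'.2.2 i j).1,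
      key (G.1.1 i j).2 (G'.1.1 i j).2 (G.2.2 i j).2 (G'.2.2 i j).2⟩

/-- **FINW.** -/
theorem finw (hX : MIX) : P354SP.FINW := by
  intro p0 k ε0 δ1 C K kd s m F hs p hp q hq t ht d hd σ
  obtain ⟨c, hc, B, hG⟩ := F.geo t (m + 2)
  obtain ⟨B', hB'⟩ := hX.2.1 (m + 2) B
  obtain ⟨c', hc', B2, Gd⟩ := P354DG.geo_all hX (F.sta p hp t ht).1 (F.sta q hq t ht).1 hs
    ⟨d, hd⟩ (m + 2)
  obtain ⟨C1, c1, hW⟩ := wd_bd (max B (max B' B2)) m (lt_min hc hc') hs.le
  obtain ⟨C2, c2, hY⟩ := cy_bd m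
  have G := hG p hp t ⟨ht, le_rfl⟩
  have G' := hG q hq t ⟨ht, le_rfl⟩
  have w := hW _ _ _ _ d ENNReal.toReal_nonneg (by positivity)
    (geo_mono G (min_le_left _ _) (le_max_left _ _))
    (geo_mono G' (min_le_left _ _) (le_max_left _ _))
    (geo_mono (hB' c _ _ G G') (min_le_left _ _) (le_max_of_le_right (le_max_left _ _)))
    (geo_mono Gd (min_le_right _ _) (le_max_of_le_right (le_max_right _ _)))
    (ENNReal.ofReal_toReal (hd.finite _).ne).ge (pm_geo G G') σ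
  exact ⟨_, fun i α hα z => by
    rw [wd_eq (F.init p hp t ht σ) (F.init q hq t ht σ), ← wt_eq]
    exact (hY _ _ (((sl1 _ _ (Gd.1.toPD σ)).1 i).sub ((st_sm.mul ((sl1 _ _ (G.1.toPD σ)).1 i)).add
      ((contDiff_const.sub st_sm).mul ((sl1 _ _ (G'.1.toPD σ)).1 i))))
      (fun z => mul_nonneg (by positivity) (P354JP.wt_pos s z).le) (fun z hz => w z hz i)
      z α hα).trans_eq (mul_assoc _ _ _).symm⟩

end Vale.Agent.P354N2
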